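import Vale.Agent.P352X.R.RES.Spec
import Vale.Agent.P352Z.P352X.Main0

open Vale.Agent.P352G

/-!
# P352X, block RES: sub-rows

Sources are polynomials in five vectors `h1, h2, h3, u, v` (indices `0, 1, 2, 3, 4`); `h_j` is
contracted with the two (lower) indices of slot `j`, `u = z1 - z2`, `v = z3 - z2`.
-/

set_option linter.all false

open MeasureTheory Filter Topology
open scoped SchwartzMap ComplexConjugate ENNReal ContDiff

namespace Vale.Agent.P352X.RS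

open Vale.Agent.P352 Vale.Agent.P352.GF Vale.Agent.P352.BW Vale.Agent.P352.H246
open Vale.Agent.P352.H496 Vale.Agent.P352.H755 Vale.Agent.P352.H15
open UniformSpace (Completion)
open MvPolynomial (X C pderiv aeval)

noncomputable section

/-! ## algebra -/

/-! ## the reduced distribution -/

variable {D : Type*} [NormedAddCommGroup D] [InnerProductSpace ℂ D] [GrD D] (c : CtxZ D)

/-- the reduced distribution -/
def LamZ (ρ0 : V → ℝ) (φ : V × V → ℂ) (S : P20) : ℂ := ∑ I, ∑ J, ∑ K,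
  c.t I J K (sch fun z : V × V × V => (ρ0 z.2.1 : ℂ) * (φ (z.1 - z.2.1, z.2.2 - z.2.1) *
    ev8 (d6 I J K S) (z.1 - z.2.1, z.2.2 - z.2.1)))

/-- fibre integration -/
def FIBZ : Prop := ∀ (ρ0 : V → ℝ) I J K (F : V × V × V → ℂ), Tst ρ0 → ∫ x, ρ0 x = 1 → Dc F →
  Dc (fun z : V × V => ∫ y, F (y + z.1, y, y + z.2)) ∧
  c.t I J K (sch F) = c.t I J K (sch fun z : V × V × V =>
    (ρ0 z.2.1 : ℂ) * ∫ y, F (y + (z.1 - z.2.1), y, y + (z.2.2 - z.2.1)))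

/-- the sub-rows of block RES -/
structure RowsZ : Prop where
  fib : T3Z c → FIBZ c
  red : T3Z c → FIBZ c → ∀ ρ0, Tst ρ0 → ∫ x, ρ0 x = 1 → RD0 (LamZ c ρ0)
  divc : T3Z c → ∀ ρ0, Tst ρ0 → ∫ x, ρ0 x = 1 → DIVC (LamZ c ρ0)
  diva : T3Z c → ∀ ρ0, Tst ρ0 → ∫ x, ρ0 x = 1 → DIVA (LamZ c ρ0)
  coc : COC
  alg1 : ALG1
  alg2 : ALG2
  link : T3Z c → FIBZ c → (∀ ρ0, Tst ρ0 → ∫ x, ρ0 x = 1 → RZ (LamZ c ρ0)) → RESZ c

theorem RowsZ.res {c : CtxZ D} (r : RowsZ c) (t : T3Z c) : RESZ c :=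
  r.link t (r.fib t) fun ρ0 h1 h2 => r.coc _ (r.red t (r.fib t) ρ0 h1 h2) (r.divc t ρ0 h1 h2)
    (r.diva t ρ0 h1 h2) r.alg1 r.alg2

end

end Vale.Agent.P352X.RS
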