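import Vale.Agent.P352X.R.RES.RedB
import Vale.Agent.P352Z.P352X.R.RES.Spec

open Vale.Agent.P352G

/-!
# P352X, block RES: infinitesimal covariance of the three point distribution
-/

set_option linter.all false

open MeasureTheory Filter Topology
open scoped SchwartzMap ContDiff

namespace Vale.Agent.P352X.RS.Red

open Vale.Agent.P352 Vale.Agent.P352.GF

noncomputable section

section
variable {E : Type*} [NormedAddCommGroup E] [NormedSpace ℝ E] {F G : E → ℂ}

end

variable {D : Type*} [NormedAddCommGroup D] [InnerProductSpace ℂ D] [GrD D] (c : CtxZ D)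

/-- infinitesimal covariance -/
theorem infZ [Fact c.tp] {s : ℝ → ℝ} {L : ℝ → Ix → V} {s' : ℝ} {w : Ix → V} (hs : HasDerivAt s s' 0)
    (hL : HasDerivAt L w 0) (s0 : s 0 = 1) (L0 : L 0 = GF.one)
    (hI : ∀ᶠ t in 𝓝 (0 : ℝ), IsLor (L t)) {F : V × V × V → ℂ} (hF : Dc F)
    (h : (∀ t, s t = 1) ∨ ∀ x, (x, x, x) ∉ tsupport F) (I J K : I2) :
    c.t I J K (sch fun z => fderiv ℝ F z (tri (s' • 1 + mat w) z)) +
      (∑ M, l2 w M I * c.t M J K (sch F) + ∑ M, l2 w M J * c.t I M K (sch F) +
        ∑ M, l2 w M K * c.t I J M (sch F)) = 0 := by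
  have hg : HasDerivAt (fun t => tri (s t • mat (L t))) (tri (s' • 1 + mat w)) 0 :=
    tri.hasFDerivAt.comp_hasDerivAt 0 (by
      simpa [s0, L0, mat_one, add_comm] using hs.fun_smul (mat.hasFDerivAt.comp_hasDerivAt 0 hL))
  have g0 : tri (s 0 • mat (L 0)) = 1 := by
    rw [s0, L0, mat_one, one_smul]
    rfl
  set Ft : ℝ → S3 := fun t => sch fun z => F (tri (s t • mat (L t)) z) with hFt
  have e1 : ∀ᶠ t in 𝓝 (0 : ℝ), ∀ z, Ft t z = F (tri (s t • mat (L t)) z) := by
    filter_upwards [(tendsto_iff_norm_sub_tendsto_zero.1 (g0 ▸ hg.continuousAt.tendsto)).eventually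
      (gt_mem_nhds one_pos)] with t k using sch_app (dc_comp hF k)
  have F0 : Ft 0 = sch F := by simp only [hFt, g0, ContinuousLinearMap.one_apply]
  have e2 := Lie.der (a := fun _ => 0) (F := sch F) (Ft := Ft)
    (F' := sch fun z => fderiv ℝ F z (tri (s' • 1 + mat w) z)) hg (hasDerivAt_const _ _) g0 rfl
    (e1.mono fun t k z => by rw [k, add_zero, sch_app hF]) fun z => by
      rw [sch_app (dc_der hF _), add_zero, show (sch F : _ → ℂ) = F from funext (sch_app hF)]
  have e3 : ∀ I J K, HasDerivAt (fun t => c.t I J K (Ft t))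
      (c.t I J K (sch fun z => fderiv ℝ F z (tri (s' • 1 + mat w) z))) 0 := fun I J K =>
    hasDerivAt_iff_tendsto_slope_zero.2 ((((c.t I J K).continuous.tendsto _).comp e2).congr
      fun t => by simp [F0])
  have e4 := HasDerivAt.fun_sum (u := Finset.univ) fun I' _ => HasDerivAt.fun_sum
    (u := Finset.univ) fun J' _ => HasDerivAt.fun_sum (u := Finset.univ) fun K' _ =>
      (((L2_der hL L0 I' I).fun_mul (L2_der hL L0 J' J)).fun_mul (L2_der hL L0 K' K)).fun_mul
        (e3 I' J' K')
  have e5 := (e4.unique ((hasDerivAt_const 0 (c.t I J K (sch F))).congr_of_eventuallyEq (by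
    filter_upwards [e1, hI, hs.continuousAt.eventually (lt_mem_nhds (s0.symm ▸ one_pos))]
      with t k1 k2 k3
    exact (c.hTP.cov (s t) (L t) 0 I J K (sch F) (Ft t) k3 k2 (fun x y z => by
      simp only [k1, sch_app hF, sim_mat, tri_app, ContinuousLinearMap.smul_apply])
      (h.imp (· t) fun k => by rwa [show (sch F : _ → ℂ) = F from funext (sch_app hF)])).symm)))
  rw [← e5]
  simp only [L0, L2_one, F0, add_mul, Finset.sum_add_distrib, ite_mul, mul_ite, one_mul, zero_mul,
    mul_one, mul_zero, Finset.sum_ite_eq', Finset.mem_univ, if_true, Finset.sum_ite_irrel,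
    Finset.sum_const_zero]
  ring

end

end Vale.Agent.P352X.RS.Red
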