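import Vale.Agent.P352X.R.RES.Red
import Vale.Agent.P352Z.P352X.R.RES.RedB

open Vale.Agent.P352G

/-!
# P352X, block RES: row `red`
-/

set_option linter.all false

open MeasureTheory Filter Topology
open scoped SchwartzMap ContDiff

namespace Vale.Agent.P352X.RS

open Vale.Agent.P352 Vale.Agent.P352.GF Vale.Agent.P352.H755
open MvPolynomial (C)

noncomputable section

namespace Red

variable {g : V → ℂ} {φ ψ : V × V → ℂ} {ρ0 : V → ℝ}

variable {D : Type*} [NormedAddCommGroup D] [InnerProductSpace ℂ D] [GrD D] (c : CtxZ D) {I J K : I2}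

/-- the reduced distribution, components -/
def tauZ (ρ0 : V → ℝ) (I J K : I2) (ψ : V × V → ℂ) : ℂ := c.t I J K (sch (lf (cx ρ0) ψ))

theorem lam_eqZ (S : P20) : LamZ c ρ0 φ S =
    ∑ I, ∑ J, ∑ K, tauZ c ρ0 I J K fun z => φ z * ev8 (d6 I J K S) z := rfl

theorem tau_linZ (h : Tst ρ0) (hφ : Dc φ) (hψ : Dc ψ) (a : ℂ) :
    tauZ c ρ0 I J K (fun z => φ z + a * ψ z) = tauZ c ρ0 I J K φ + a * tauZ c ρ0 I J K ψ := by
  rw [tauZ, tauZ, tauZ, ← smul_eq_mul, ← map_smul, ← map_add,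
    ← sch_lin (dc_lf (dc_cx h) hφ) (dc_lf (dc_cx h) hψ)]
  exact congrArg (fun F => c.t I J K (sch F)) (funext fun z => by simp only [lf]; ring)

theorem tau_zeroZ (h : Tst ρ0) : tauZ c ρ0 I J K (fun _ => 0) = 0 := by
  simpa using tau_linZ c (I := I) (J := J) (K := K) h dc_zero dc_zero (-1)

theorem tau_smulZ (h : Tst ρ0) (hψ : Dc ψ) (a : ℂ) :
    tauZ c ρ0 I J K (fun z => a * ψ z) = a * tauZ c ρ0 I J K ψ := by
  simpa [tau_zeroZ c h] using tau_linZ c (I := I) (J := J) (K := K) h dc_zero hψ a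

theorem tau_addZ (h : Tst ρ0) (hφ : Dc φ) (S S' : P20) :
    tauZ c ρ0 I J K (fun z => φ z * ev8 (S + S') z) =
      tauZ c ρ0 I J K (fun z => φ z * ev8 S z) + tauZ c ρ0 I J K fun z => φ z * ev8 S' z := by
  simpa only [one_mul, ← mul_add, ← ev8_add] using tau_linZ c (I := I) (J := J) (K := K) h
    (dc_mul hφ (ev8_smooth S)) (dc_mul hφ (ev8_smooth S')) 1

theorem tau_CZ (h : Tst ρ0) (hφ : Dc φ) (a : ℂ) (S : P20) :
    tauZ c ρ0 I J K (fun z => φ z * ev8 (C a * S) z) =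
      a * tauZ c ρ0 I J K fun z => φ z * ev8 S z := by
  simpa only [ev8_mul, ev8_C, mul_left_comm] using tau_smulZ c (I := I) (J := J) (K := K) h
    (dc_mul hφ (ev8_smooth S)) a

theorem tau_sumZ {ι : Type} (t : Finset ι) (h : Tst ρ0) (hφ : Dc φ) (S : ι → P20) :
    tauZ c ρ0 I J K (fun z => φ z * ev8 (∑ i ∈ t, S i) z) =
      ∑ i ∈ t, tauZ c ρ0 I J K fun z => φ z * ev8 (S i) z := by
  classical
  induction t using Finset.induction_on with
  | empty => simpa [ev8] using tau_zeroZ c h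
  | insert i t hi ih => rw [Finset.sum_insert hi, Finset.sum_insert hi, tau_addZ c h hφ, ih]

variable {c}

theorem fib2Z (hF : FIBZ c) (h : Tst ρ0) (h1 : ∫ x, ρ0 x = 1) (hg : Dc g) (hψ : Dc ψ) :
    c.t I J K (sch (lf g ψ)) = (∫ y, g y) * tauZ c ρ0 I J K ψ := by
  rw [(hF ρ0 I J K _ h h1 (dc_lf hg hψ)).2, ← tau_smulZ c h hψ]
  exact congrArg (fun F => c.t I J K (sch F)) (funext fun z => by
    simp only [lf, dq_app, add_sub_cancel_left, integral_mul_const, cx])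

theorem fib1Z (hF : FIBZ c) (h : Tst ρ0) (h1 : ∫ x, ρ0 x = 1) (hψ : Dc ψ) :
    c.t I J K (sch fun z : V × V × V => cx ρ0 z.1 * ψ (dq z)) = tauZ c ρ0 I J K ψ := by
  rw [(hF ρ0 I J K _ h h1 (dc_lf1 (dc_cx h) hψ)).2]
  refine congrArg (fun F => c.t I J K (sch F)) (funext fun z => ?_)
  simp only [lf, dq_app, add_sub_cancel_left, integral_mul_const]
  rw [integral_add_right_eq_self (cx ρ0), show ∫ y, cx ρ0 y = 1 by
    rw [← Complex.ofReal_one, ← h1]; exact integral_ofReal, one_mul]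
  rfl

theorem tau_infZ [Fact c.tp] (hF : FIBZ c) (h : Tst ρ0) (h1 : ∫ x, ρ0 x = 1) {s : ℝ → ℝ} {L : ℝ → Ix → V}
    {s' : ℝ} {w : Ix → V} (hs : HasDerivAt s s' 0) (hL : HasDerivAt L w 0) (s0 : s 0 = 1)
    (L0 : L 0 = GF.one) (hI : ∀ᶠ t in 𝓝 (0 : ℝ), IsLor (L t)) (hw : ∀ n, w n n = 0) (hψ : Dc ψ)
    (h0 : (∀ t, s t = 1) ∨ (0 : V × V) ∉ tsupport ψ) (I J K : I2) :
    tauZ c ρ0 I J K (fun y => fderiv ℝ ψ y ((s' • 1 + mat w).prodMap (s' • 1 + mat w) y)) +
      (∑ M, l2 w M I * tauZ c ρ0 M J K ψ + ∑ M, l2 w M J * tauZ c ρ0 I M K ψ +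
        ∑ M, l2 w M K * tauZ c ρ0 I J M ψ) = 4 * s' * tauZ c ρ0 I J K ψ := by
  have k := infZ c hs hL s0 L0 hI (dc_lf (dc_cx h) hψ) (h0.imp id fun k x => by
    rw [notMem_tsupport_iff_eventuallyEq] at k ⊢
    exact ((dq.continuous.tendsto' (x, x, x) 0 (by simp [dq_app])).eventually k).mono
      fun z e => by simp only [lf, e, Pi.zero_apply, mul_zero]) I J K
  rw [funext (lf_der (dc_cx h) hψ _), sch_lin (dc_lf (dc_cx h) (dc_der hψ _))
    (dc_lf (dc_der (dc_cx h) _) hψ), one_smul, map_add, fib2Z hF h h1 (dc_der (dc_cx h) _) hψ,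
    int_der (dc_cx h), show ∫ y, cx ρ0 y = 1 by
      rw [← Complex.ofReal_one, ← h1]; exact integral_ofReal] at k
  have e : ∑ n, (((s' • 1 + mat w : V →L[ℝ] V) (bas n 1) n : ℝ) : ℂ) = 4 * s' := by
    simp [mat_bas, hw, bas]
  rw [e] at k
  simp only [tauZ] at k ⊢
  linear_combination k

theorem tau12Z [Fact c.tp] (hF : FIBZ c) (h : Tst ρ0) (h1 : ∫ x, ρ0 x = 1) (hψ : Dc ψ) :
    tauZ c ρ0 I J K (fun z => ψ (-z.1, z.2 - z.1)) = tauZ c ρ0 J I K ψ := by
  have k := dc_inj hψ ((-ContinuousLinearMap.fst ℝ V V).prod (.snd ℝ V V - .fst ℝ V V))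
    fun ⟨x, y⟩ e => by
      obtain ⟨k1, k2⟩ := Prod.mk_eq_zero.1 e
      obtain rfl : x = 0 := by simpa using k1
      simpa using k2
  rw [← fib1Z hF h h1 hψ]
  refine c.hTP.swap1 I J K _ _ fun x y z => ?_
  rw [sch_app (dc_lf1 (dc_cx h) hψ)]
  refine Eq.trans ?_ (sch_app (dc_lf (dc_cx h) k) _).symm
  simp [lf, dq_app]

theorem tau13Z [Fact c.tp] (h : Tst ρ0) (hψ : Dc ψ) :
    tauZ c ρ0 I J K (fun z => ψ (z.2, z.1)) = tauZ c ρ0 K J I ψ := by
  have k := dc_lf (dc_cx h) (dc_inj hψ ((ContinuousLinearMap.snd ℝ V V).prod (.fst ℝ V V))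
    fun ⟨x, y⟩ e => Prod.mk_eq_zero.2 (Prod.mk_eq_zero.1 e).symm)
  let e1 : (V × V × V) ≃L[ℝ] V × V × V := (ContinuousLinearEquiv.prodAssoc ℝ V V V).symm.trans
    (((ContinuousLinearEquiv.prodComm ℝ V V).prodCongr (.refl ℝ V)).trans (.prodAssoc ℝ V V V))
  let e2 : (V × V × V) ≃L[ℝ] V × V × V :=
    (ContinuousLinearEquiv.refl ℝ V).prodCongr (.prodComm ℝ V V)
  let F : S3 := sch (lf (cx ρ0) fun z => ψ (z.2, z.1))
  let F1 := SchwartzMap.compCLMOfContinuousLinearEquiv ℂ e1 F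
  let F2 := SchwartzMap.compCLMOfContinuousLinearEquiv ℂ e2 F1
  refine (c.hTP.swap1 I J K F F1 fun _ _ _ => rfl).trans ((c.hTP.swap2 J I K F1 F2
    fun _ _ _ => rfl).trans (c.hTP.swap1 J K I F2 _ fun x y z => ?_))
  rw [sch_app (dc_lf (dc_cx h) hψ)]
  exact (sch_app k (z, y, x)).symm

end Red

open Red in
/-- row RES.red -/
theorem red_rowZ {D : Type*} [NormedAddCommGroup D] [InnerProductSpace ℂ D] [GrD D] (c : CtxZ D) [Fact c.tp] :
    T3Z c → FIBZ c → ∀ ρ0, Tst ρ0 → ∫ x, ρ0 x = 1 → RD0 (LamZ c ρ0) := by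
  intro _ hF ρ0 h h1
  have dm : ∀ {φ : V × V → ℂ} (S : P20), Dc φ → Dc fun z => φ z * ev8 S z :=
    fun S k => dc_mul k (ev8_smooth S)
  refine ⟨fun φ ψ a S hφ hψ => ?_, fun φ a S S' hφ => ?_, fun φ n S hφ h0 hS => ?_,
    fun w φ S hw hφ => ?_, fun φ S hφ => ?_, fun φ S hφ => ?_⟩
  · simp only [lam_eqZ, add_mul, mul_assoc, tau_linZ c h (dm _ hφ) (dm _ hψ), Finset.sum_add_distrib,
      Finset.mul_sum]
  · simp only [lam_eqZ, d6_lin, tau_addZ c h hφ, tau_CZ c h hφ, Finset.sum_add_distrib, Finset.mul_sum]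
  · simp only [lam_eqZ, Finset.mul_sum]
    refine Finset.sum_congr rfl fun I _ => Finset.sum_congr rfl fun J _ =>
      Finset.sum_congr rfl fun K _ => ?_
    have k := tau_infZ hF h h1 (s := fun t => 1 + t) (L := fun _ => GF.one)
      ((hasDerivAt_id' 0).const_add 1) (hasDerivAt_const _ _) (add_zero _) rfl
      (by
        obtain ⟨L, -, l1, l2⟩ := ex_flow (w := 0) fun _ _ => by simp
        exact .of_forall fun _ => l1 ▸ l2.self_of_nhds)
      (fun _ => rfl) (dm (d6 I J K S) hφ) (.inr fun k => h0 (tsupport_mul_subset_left k)) I J K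
    have e : ∀ z, fderiv ℝ (fun z => φ z * ev8 (d6 I J K S) z) z
        ((((1 : ℝ) • 1 + mat 0 : V →L[ℝ] V).prodMap ((1 : ℝ) • 1 + mat 0)) z) =
        Ef φ z * ev8 (d6 I J K S) z + n * (φ z * ev8 (d6 I J K S) z) := fun z => by
      rw [show (((1 : ℝ) • 1 + mat 0 : V →L[ℝ] V).prodMap ((1 : ℝ) • 1 + mat 0)) z = z by simp,
        mul_der hφ, one_mul, ← Ef, ← Ef, ev8_E (d6_deg hS I J K), mul_left_comm]
    rw [funext e, tau_linZ c h (dm _ (show Dc (Ef φ) from dc_der hφ 1)) (dm _ hφ)] at k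
    simp only [l2, Pi.zero_apply, zero_mul, mul_zero, add_zero, Complex.ofReal_zero,
      Finset.sum_const_zero, Complex.ofReal_one] at k
    linear_combination k
  · obtain ⟨L, l0, l1, l2⟩ := ex_flow hw
    have k := fun I J K I' J' K' => tau_infZ hF h h1 (s := fun _ => 1) (hasDerivAt_const _ _) l0 rfl
      l1 l2 (fun n => by
        have := hw n n
        have e : eta n ≠ 0 := by unfold eta; split_ifs <;> norm_num
        exact (mul_eq_zero.1 (by linarith)).resolve_left e) (dm (d6 I' J' K' S) hφ)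
      (.inl fun _ => rfl) I J K
    have e0 : ∀ z : V × V, (((0 : ℝ) • 1 + mat w : V →L[ℝ] V).prodMap ((0 : ℝ) • 1 + mat w)) z =
        (sim 1 w 0 z.1, sim 1 w 0 z.2) := fun z => by simp [sim_mat, Prod.map]
    have hX : Dc (Xf w φ) := by
      have := dc_der hφ (((0 : ℝ) • 1 + mat w).prodMap ((0 : ℝ) • 1 + mat w))
      simp only [e0] at this
      exact this
    have e : ∀ (R : P20) z, fderiv ℝ (fun z => φ z * ev8 R z) z
        ((((0 : ℝ) • 1 + mat w : V →L[ℝ] V).prodMap ((0 : ℝ) • 1 + mat w)) z) =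
        Xf w φ z * ev8 R z + 1 * (φ z * ev8 (om w R) z) := fun R z => by
      rw [e0, mul_der hφ, ev8_om]
      rfl
    simp only [e, tau_linZ c h (dm _ hX) (dm _ hφ)] at k
    simp only [one_mul, Complex.ofReal_zero, mul_zero, zero_mul] at k
    have s := Finset.sum_eq_zero (s := Finset.univ) fun I _ => Finset.sum_eq_zero
      (s := Finset.univ) fun J _ => Finset.sum_eq_zero (s := Finset.univ) fun K _ => k I J K I J K
    simp only [lam_eqZ, d6_om, tau_addZ c h hφ, tau_sumZ c _ h hφ, tau_CZ c h hφ,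
      Finset.sum_add_distrib] at s ⊢
    rw [← s, add_assoc, sw4 fun I M J K => Red.l2 w I M * tauZ c ρ0 I J K fun z =>
        φ z * ev8 (d6 M J K S) z,
      Finset.sum_congr rfl fun I _ => sw3 fun J M K => Red.l2 w J M * tauZ c ρ0 I J K fun z =>
        φ z * ev8 (d6 I M K S) z,
      Finset.sum_congr rfl fun I _ => Finset.sum_congr rfl fun J _ => Finset.sum_comm
        (f := fun K M => Red.l2 w K M * tauZ c ρ0 I J K fun z => φ z * ev8 (d6 I J M S) z)]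
    simp only [add_assoc]
  · simp only [lam_eqZ, d6_s12, ev8_s12]
    rw [Finset.sum_comm]
    simp only [fun I J K => tau12Z (I := J) (J := I) (K := K) hF h h1 (dm (d6 I J K S) hφ)]
  · simp only [lam_eqZ, d6_s13, ev8_s13]
    rw [sw3 fun I K J => tauZ c ρ0 I J K fun z => φ (z.2, z.1) * ev8 (d6 K J I S) (z.2, z.1)]
    simp only [fun I J K => tau13Z (c := c) (I := K) (J := J) (K := I) h (dm (d6 I J K S) hφ)]

end

end Vale.Agent.P352X.RS
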