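import Vale.Agent.P352X.R.RES.Divc
import Vale.Agent.P352Z.P352X.R.RES.Red
import Vale.Agent.P352Z.P352X.R.STRUCT

open Vale.Agent.P352G

/-!
# P352X, block RES: row `divc`
-/

set_option linter.all false

open MeasureTheory Filter Topology Set Metric
open scoped SchwartzMap ContDiff LineDeriv

namespace Vale.Agent.P352X.RS

open Vale.Agent.P352 Vale.Agent.P352.GF Vale.Agent.P352.H755
open MvPolynomial (C X pderiv)
open UniformSpace (Completion)

noncomputable section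

namespace Dvc

open Red

variable {D : Type*} [NormedAddCommGroup D] [InnerProductSpace ℂ D] [GrD D] (c : CtxZ D)

/-- the divergence in the first slot -/
def dv3Z (n : Ix) (J K : I2) : S3 →L[ℂ] ℂ :=
  ∑ m, c.t (m, n) J K ∘L LineDeriv.lineDerivOpCLM ℂ S3 ((bas m 1, 0) : V × V × V)

theorem dv3_applyZ (n : Ix) (J K : I2) (F : S3) :
    dv3Z c n J K F = ∑ m, c.t (m, n) J K (∂_{((bas m 1, 0) : V × V × V)} F) := by
  simp [dv3Z]

theorem dv3_tensZ (n : Ix) (J K : I2) (f : Sch) (G : S2) : dv3Z c n J K (ST.tens f G) =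
    ∑ m, c.t (m, n) J K (ST.tens (∂_{(bas m 1 : V)} f) G) := by
  simp only [dv3_applyZ, d_tens]

theorem cons0Z (n : Ix) (f : Sch) :
    ∑ m, ((c.T m n (ev (∂_{(bas m 1 : V)} f)) c.Q.vac : D) : Completion D) = 0 := by
  rw [← Str.coe_sum]
  have := c.hT.conserved n (ev f) c.Q.vac ⟨f, rfl⟩
  simp only [Grp.pd_ev] at this
  rw [this, Completion.coe_zero]

theorem cons1Z (n : Ix) (f : Sch) :
    ∑ m, ((c.T m n (bar (ev (∂_{(bas m 1 : V)} f))) c.Q.vac : D) : Completion D) = 0 := by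
  rw [← Str.coe_sum]
  have h := c.hT.conserved n (bar (ev f)) c.Q.vac (Ap.test_bar ⟨f, rfl⟩)
  have e : ∀ m, pd m (bar (ev f)) = bar (ev (∂_{(bas m 1 : V)} f)) := fun m => by
    rw [← Grp.pd_ev, ← Ap.dv_bas, ← Ap.dv_bas]
    funext x
    exact Ap.dv_bar f.differentiableAt _
  simp only [e] at h
  rw [h, Completion.coe_zero]

variable {n : Ix} {J K : I2} {f g k : Sch}

/-- the first point is the latest -/
theorem z1Z [Fact c.tp] {G : S2} (h : Late (tsupport f) (Prod.fst '' tsupport G ∪ Prod.snd '' tsupport G)) :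
    dv3Z c n J K (ST.tens f G) = 0 := by
  rw [dv3_tensZ, Finset.sum_congr rfl fun m _ => c.hTP.fac1 (m, n) J K _ G _ (fun _ _ _ => rfl)
    (late_mono h (sd m f) subset_rfl), ← sum_inner, cons1Z, inner_zero_left]

/-- the first point is the earliest -/
theorem z2Z [Fact c.tp] {G : S2} (h : Late (Prod.fst '' tsupport G ∪ Prod.snd '' tsupport G) (tsupport f)) :
    dv3Z c n J K (ST.tens f G) = 0 := by
  obtain ⟨G', hG'⟩ := Ap.sw_star (Ap.sw_coe G)
  have e : ∀ m, c.t (m, n) J K (ST.tens (∂_{(bas m 1 : V)} f) G) = inner ℂ (c.wm J K G')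
      ((c.T m n (ev (∂_{(bas m 1 : V)} f)) c.Q.vac : D) : Completion D) := fun m => by
    let e1 : (V × V × V) ≃L[ℝ] V × V × V := (ContinuousLinearEquiv.prodAssoc ℝ V V V).symm.trans
      (((ContinuousLinearEquiv.prodComm ℝ V V).prodCongr (.refl ℝ V)).trans
        (ContinuousLinearEquiv.prodAssoc ℝ V V V))
    let e2 : (V × V × V) ≃L[ℝ] V × V × V :=
      (ContinuousLinearEquiv.refl ℝ V).prodCongr (ContinuousLinearEquiv.prodComm ℝ V V)
    let F1 := SchwartzMap.compCLMOfContinuousLinearEquiv ℂ e1 (ST.tens (∂_{(bas m 1 : V)} f) G)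
    let F2 := SchwartzMap.compCLMOfContinuousLinearEquiv ℂ e2 F1
    rw [c.hTP.swap1 _ _ _ _ F1 fun _ _ _ => rfl, c.hTP.swap2 _ _ _ _ F2 fun _ _ _ => rfl]
    exact c.hTP.fac3 J K (m, n) G G' _ F2 (fun _ _ _ => mul_comm _ _) (congrFun hG')
      (late_mono h subset_rfl (sd m f))
  rw [dv3_tensZ, Finset.sum_congr rfl fun m _ => e m, ← inner_sum, cons0Z, inner_zero_right]

/-- the second point is the latest -/
theorem z3Z [Fact c.tp] (h1 : Late (tsupport g) (tsupport f)) (h2 : Late (tsupport g) (tsupport k))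
    (h3 : Disjoint (tsupport f) (tsupport k)) : dv3Z c n J K (ST.tens f (ST.tens g k)) = 0 := by
  have e : ∀ m, c.t (m, n) J K (ST.tens (∂_{(bas m 1 : V)} f) (ST.tens g k)) =
      inner ℂ ((c.T J.1 J.2 (bar (ev g)) c.Q.vac : D) : Completion D)
        (c.wp (m, n) K (∂_{((bas m 1, 0) : V × V)} (ST.tens f k))) := fun m => by
    have e0 : ∂_{((bas m 1, 0) : V × V)} (ST.tens f k) = ST.tens (∂_{(bas m 1 : V)} f) k := by
      ext ⟨x, y⟩
      exact Str.d_tens m f k x y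
    rw [e0, c.hTP.swap1 _ _ _ _ (ST.tens g (ST.tens (∂_{(bas m 1 : V)} f) k))
      fun _ _ _ => mul_left_comm _ _ _]
    refine c.hTP.fac1 J (m, n) K g _ _ (fun _ _ _ => rfl) fun x hx y hy => ?_
    rcases pr_tens _ _ hy with hy | hy
    exacts [h1 x hx y (sd m f hy), h2 x hx y hy]
  have h0 := Str.off c.hT c.hTP.tp n K (ST.tens f k) fun x hx =>
    Set.disjoint_left.1 h3 (ST.tsupport_tens f k hx).1 (ST.tsupport_tens f k hx).2
  rw [Str.dvL_apply, dv1] at h0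
  rw [dv3_tensZ, Finset.sum_congr rfl fun m _ => e m, ← inner_sum, h0, inner_zero_right]

theorem zswZ [Fact c.tp] : dv3Z c n J K (ST.tens f (ST.tens g k)) = dv3Z c n K J (ST.tens f (ST.tens k g)) := by
  rw [dv3_tensZ, dv3_tensZ]
  exact Finset.sum_congr rfl fun m _ => c.hTP.swap2 _ _ _ _ _ fun x y z =>
    congrArg ((∂_{(bas m 1 : V)} f : Sch) x * ·) (mul_comm (k y) (g z))

/-- the divergence vanishes away from `z1 = z2` and `z1 = z3` -/
theorem off3Z [Fact c.tp] (n : Ix) (J K : I2) (F : S3) (hF : ∀ q ∈ tsupport F, q.1 ≠ q.2.1 ∧ q.1 ≠ q.2.2) :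
    dv3Z c n J K F = 0 := by
  refine ST.ker3_local _ F fun q hq => ?_
  obtain ⟨h2, h3⟩ := hF q hq
  obtain ⟨x, y, z⟩ := q
  simp only at h2 h3 ⊢
  suffices h : ∀ᶠ δ in 𝓝[>] (0 : ℝ), ∀ f g k : Sch, tsupport f ⊆ ball x δ →
      tsupport g ⊆ ball y δ → tsupport k ⊆ ball z δ →
      dv3Z c n J K (ST.tens f (ST.tens g k)) = 0 by
    obtain ⟨δ, h1, h0⟩ := (h.and self_mem_nhdsWithin).exists
    exact ⟨δ, h0, fun f g k _ _ _ => h1 f g k⟩
  by_cases a : Lt x y ∧ Lt x z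
  · filter_upwards [lt_near a.1, lt_near a.2] with δ d1 d2 f g k s1 s2 s3
    refine z1Z c fun u hu v hv => ?_
    rcases pr_tens _ _ hv with hv | hv
    exacts [d1 u (s1 hu) v (s2 hv), d2 u (s1 hu) v (s3 hv)]
  by_cases b : Lt y x ∧ Lt z x
  · filter_upwards [lt_near b.1, lt_near b.2] with δ d1 d2 f g k s1 s2 s3
    refine z2Z c fun u hu v hv => ?_
    rcases pr_tens _ _ hu with hu | hu
    exacts [d1 u (s2 hu) v (s1 hv), d2 u (s3 hu) v (s1 hv)]
  rcases not_and_or.1 a with a | a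
  · have t1 := time_lt h2 a
    have t2 := time_lt h3.symm fun b' => b ⟨lt_of_time t1, b'⟩
    filter_upwards [lt_near (lt_of_time t1), lt_near (lt_of_time (t2.trans t1)), dis_near h3]
      with δ d1 d2 d3 f g k s1 s2 s3
    exact z3Z c (late_mono d1 s2 s1) (late_mono d2 s2 s3) (d3.mono s1 s3)
  · have t1 := time_lt h3 a
    have t2 := time_lt h2.symm fun b' => b ⟨b', lt_of_time t1⟩
    filter_upwards [lt_near (lt_of_time t1), lt_near (lt_of_time (t2.trans t1)), dis_near h2]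
      with δ d1 d2 d3 f g k s1 s2 s3
    rw [zswZ]
    exact z3Z c (late_mono d1 s3 s1) (late_mono d2 s3 s2) (d3.mono s1 s2)

/-! ## the divergence of the reduced distribution -/

theorem div_eqZ [Fact c.tp] {ρ0 : V → ℝ} (h : Tst ρ0) {φ : V × V → ℂ} (hφ : Dc φ) (Ξ : P20) :
    Div (LamZ c ρ0) φ Ξ = 2 * ∑ n, ∑ J, ∑ K,
      dv3Z c n J K (sch (lf (cx ρ0) fun z => φ z * cp n J K Ξ z)) := by
  have hp : ∀ n J K, Dc fun z => φ z * cp n J K Ξ z := fun n J K => dc_mul hφ (ev8_smooth _)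
  have e1 : ∀ (I J K : I2), tauZ c ρ0 I J K (fun z => φ z * ev8 (d6 I J K (d1 Ξ)) z) +
      ∑ m, tauZ c ρ0 I J K (fun z => du m φ z * ev8 (d6 I J K (X (0, m) * Ξ)) z) =
      tauZ c ρ0 I J K (du I.2 fun z => φ z * cp I.1 J K Ξ z) +
        tauZ c ρ0 I J K (du I.1 fun z => φ z * cp I.2 J K Ξ z) := by
    rintro ⟨a, b⟩ J K
    have l := fun φ ψ hφ hψ => tau_linZ c (I := (a, b)) (J := J) (K := K) (φ := φ) (ψ := ψ) h hφ hψ 1
    simp only [one_mul] at l
    have k := fun m => dc_mul (dc_du hφ m) (ev8_smooth (d6 (a, b) J K (X (0, m) * Ξ)))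
    rw [Fin.sum_univ_four, ← l _ _ (k 0) (k 1), ← l _ _ (Api4.dc_add (k 0) (k 1)) (k 2),
      ← l _ _ (Api4.dc_add (Api4.dc_add (k 0) (k 1)) (k 2)) (k 3),
      ← l _ _ (dc_mul hφ (ev8_smooth _))
        (Api4.dc_add (Api4.dc_add (Api4.dc_add (k 0) (k 1)) (k 2)) (k 3)),
      ← l _ _ (dc_du (hp _ _ _) _) (dc_du (hp _ _ _) _)]
    congr 1
    funext z
    rw [← Fin.sum_univ_four fun m => du m φ z * ev8 (d6 (a, b) J K (X (0, m) * Ξ)) z]
    have e2 : ev8 (d6 (a, b) J K (d1 Ξ)) z =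
        ∑ m, ev8 (d6 (a, b) J K (X (0, m) * pderiv (3, m) Ξ)) z := by
      rw [d1, d6_eq, dp_sum, dp_sum, dp_sum, ev8_sum]
      simp only [d6_eq]
    have e3 : ∀ n m, pderiv (0, n) (dp 1 J (dp 2 K (pderiv (3, m) Ξ))) =
        pderiv (3, m) (pderiv (0, n) (dp 1 J (dp 2 K Ξ))) := fun n m => by
      simp only [dp, pd_comm _ (3, m)]
    simp only [e2, ev8_d6, e3, Finset.sum_add_distrib, mul_add, mul_ite, mul_zero,
      Finset.sum_ite_eq', Finset.mem_univ, if_true, du, cp, mul_der hφ, ev8_du]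
    ring
  have e4 : ∀ (I J K : I2) n m, tauZ c ρ0 I J K (du m fun z => φ z * cp n J K Ξ z) =
      c.t I J K (∂_{((bas m 1, 0) : V × V × V)}
        (sch (lf (cx ρ0) fun z => φ z * cp n J K Ξ z))) := fun I J K n m => by
    rw [tauZ, lf_du (dc_cx h) (hp _ _ _)]
  have e5 : Div (LamZ c ρ0) φ Ξ = ∑ I : I2, ∑ J, ∑ K,
      (tauZ c ρ0 I J K (fun z => φ z * ev8 (d6 I J K (d1 Ξ)) z) +
      ∑ m, tauZ c ρ0 I J K (fun z => du m φ z * ev8 (d6 I J K (X (0, m) * Ξ)) z)) := by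
    simp only [Div, lam_eqZ, Finset.sum_add_distrib]
    congr 1
    rw [Finset.sum_comm]
    refine Finset.sum_congr rfl fun I _ => ?_
    rw [Finset.sum_comm]
    exact Finset.sum_congr rfl fun J _ => Finset.sum_comm
  rw [e5]
  simp only [e1, e4, Finset.sum_add_distrib, dv3_applyZ, two_mul, Fintype.sum_prod_type (f :=
    fun I : I2 => ∑ J : I2, ∑ K : I2, c.t I J K _)]
  congr 1
  · refine Finset.sum_congr rfl fun a _ => ?_
    rw [Finset.sum_comm]
    refine Finset.sum_congr rfl fun J _ => ?_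
    rw [Finset.sum_comm]
    exact Finset.sum_congr rfl fun K _ => Finset.sum_congr rfl fun b _ => by
      rw [c.hTP.ind (a, b)]; rfl
  · rw [Finset.sum_comm]
    refine Finset.sum_congr rfl fun a _ => ?_
    rw [Finset.sum_comm]
    exact Finset.sum_congr rfl fun J _ => Finset.sum_comm

end Dvc

theorem divc_rowZ {D : Type*} [NormedAddCommGroup D] [InnerProductSpace ℂ D] [GrD D] (c : CtxZ D) [Fact c.tp] :
    T3Z c → ∀ ρ0, Tst ρ0 → ∫ x, ρ0 x = 1 → DIVC (LamZ c ρ0) := fun _ ρ0 h _ φ Ξ hφ hs => by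
  rw [Dvc.div_eqZ c h hφ]
  refine mul_eq_zero_of_right _ (Finset.sum_eq_zero fun n _ => Finset.sum_eq_zero fun J _ =>
    Finset.sum_eq_zero fun K _ => Dvc.off3Z c n J K _ fun q hq => ?_)
  rw [Api4.tsupport_sch (Red.dc_lf (Red.dc_cx h) (Red.dc_mul (G := Dvc.cp n J K Ξ) hφ
    (Red.ev8_smooth _)))] at hq
  obtain ⟨h1, h2⟩ := hs (Dvc.supp_lf _ _ _ hq)
  exact ⟨fun e => h1 (sub_eq_zero.2 e), fun e => h2 (congrArg (· - q.2.1) e)⟩

end

end Vale.Agent.P352X.RS
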