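import Vale.Agent.P352X.R.RES.Fib
import Vale.Agent.P352Z.P352X.R.RES.Spec

open Vale.Agent.P352G

/-!
# P352X, block RES: row `fib`
-/

set_option linter.all false

open MeasureTheory Filter Topology
open scoped SchwartzMap ContDiff

namespace Vale.Agent.P352X.RS

open Vale.Agent.P352 Vale.Agent.P352.GF Vale.Agent.P352X.Api4

noncomputable section

namespace Fib

section abstract

variable {Y E B : Type*} [NormedAddCommGroup Y] [NormedSpace ℝ Y] [FiniteDimensional ℝ Y]
  [MeasurableSpace Y] [BorelSpace Y] [NormedAddCommGroup E] [NormedSpace ℝ E]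
  [FiniteDimensional ℝ E] [NormedAddCommGroup B] [NormedSpace ℂ B] [CompleteSpace B]
  (μ : Measure Y) [μ.IsAddHaarMeasure]

end abstract

variable {D : Type*} [NormedAddCommGroup D] [InnerProductSpace ℂ D] [GrD D] (c : CtxZ D)

/-- translation invariance -/
theorem t_tslZ [Fact c.tp] (I J K : I2) (a : V) (F G : S3) (h : ∀ x y z, G (x, y, z) = F (x + a, y + a, z + a)) :
    c.t I J K F = c.t I J K G := by
  rw [c.hTP.cov 1 GF.one a I J K F G one_pos lor_one (by simpa only [sim_tr] using h) (.inl rfl)]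
  simp [l2_one]

/-- fibre integration on Schwartz space -/
theorem t_fibZ [Fact c.tp] (I J K : I2) {ρ : Sch} (h1 : ∫ y, ρ y = 1) (F : S3) :
    c.t I J K F = c.t I J K (red3 ρ (fib3 volume F)) := by
  have := inv2 volume (c.t I J K ∘L SchwartzMap.compCLMOfContinuousLinearEquiv ℂ (rd3 V))
    (fun a H => t_tslZ c I J K a _ _ fun x y z => by simp [ST.tsl_apply]) h1
    (SchwartzMap.compCLMOfContinuousLinearEquiv ℂ (rd3 V).symm F)
  refine Eq.trans (congrArg _ (SchwartzMap.ext fun z => ?_)) this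
  exact congrArg F ((rd3 V).symm_apply_apply z).symm

end Fib

variable {D : Type*} [NormedAddCommGroup D] [InnerProductSpace ℂ D] [GrD D] (c : CtxZ D)

theorem fib0Z [Fact c.tp] : FIBZ c := fun ρ0 I J K F h0 h1 hF => by
  obtain ⟨k1, k2⟩ := sch_fib3 volume hF
  refine ⟨k1, ?_⟩
  rw [Fib.t_fibZ c I J K (ρ := sch (cx ρ0)) (by
    rw [coe_sch (dc_cx h0)]
    exact (integral_complex_ofReal (f := ρ0)).trans (by rw [h1]; rfl)) (sch F), ← k2,
    ← (sch_red3 (dc_cx h0) k1).2]
  rfl

theorem fib_rowZ [Fact c.tp] : T3Z c → FIBZ c := fun _ => fib0Z c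

end

end Vale.Agent.P352X.RS
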