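import Vale.Agent.P352X.R.RES.Link
import Vale.Agent.P352Z.P352X.R.RES.Fib

open Vale.Agent.P352G

/-!
# P352X, block RES: row `link`
-/

set_option linter.all false

open MeasureTheory Filter Topology
open scoped SchwartzMap ContDiff

namespace Vale.Agent.P352X.RS

open Vale.Agent.P352.GF Vale.Agent.P352.H755 Vale.Agent.P352X.Api4 Red
open MvPolynomial (X C pderiv)

noncomputable section

namespace Link

/-! ## the components of the source -/

variable {j k : Fin 5} {S T : P20}

/-! ## the test function -/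

variable {g : P3 → ℝ} {φ : ℝ → ℝ}

variable {ρ1 κ2 κ3 : P3 → ℝ} {ρ2 θ1 θ3 : ℝ → ℝ}

variable (h1 : Tst ρ1) (h2 : Tst κ2) (h3 : Tst κ3) (h4 : Tst ρ2) (h5 : Tst θ1) (h6 : Tst θ3)
include h1 h2 h3 h4 h5 h6

end Link

open Link in
/-- row RES.link -/
theorem link_rowZ {D : Type*} [NormedAddCommGroup D] [InnerProductSpace ℂ D] [GrD D] (c : CtxZ D) [Fact c.tp] :
    T3Z c → FIBZ c → (∀ ρ0, Tst ρ0 → ∫ x, ρ0 x = 1 → RZ (LamZ c ρ0)) → RESZ c := by
  intro _ _ hR ρ1 κ2 κ3 ρ2 θ1 θ3 G h1 h2 h3 h4 h5 h6 k1 k2 hG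
  let b : ContDiffBump (0 : V) := ⟨1, 2, one_pos, one_lt_two⟩
  have r0 : Tst (b.normed volume) := ⟨b.contDiff_normed, b.hasCompactSupport_normed⟩
  have r1 : ∫ y, sch (cx (b.normed volume)) y = 1 := by
    rw [coe_sch (dc_cx r0)]
    exact (integral_complex_ofReal (f := b.normed volume)).trans (by rw [b.integral_normed]; rfl)
  have k := hR _ r0 b.integral_normed _ _ (sch_fib3 volume (dc_Ps h1 h2 h3 h4 h5 h6)).1
    (const h1 h4 k1 k2)
  rw [LamZ, Finset.sum_congr rfl fun I _ => Finset.sum_congr rfl fun J _ =>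
    Finset.sum_congr rfl fun K _ => congrArg (c.t I J K) (sch_eq ((c1 I * c2 J * c1 K) •
      red3 (sch (cx (b.normed volume))) (fib3 volume G)) fun z => by
        rw [SchwartzMap.smul_apply, red3_apply, fib3_apply, sch_apply (dc_cx r0),
          flow h1 h2 h3 h4 h5 h6, d6_S0, ev8_mul, ev8_C, smul_eq_mul, mul_left_comm,
          ← integral_const_mul, ← integral_mul_const]
        refine congrArg _ (integral_congr_ae (.of_forall fun y => ?_))
        beta_reduce
        rw [hG, ev8_Q0 y]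
        push_cast
        ring)] at k
  simp only [map_smul, ← Fib.t_fibZ c _ _ _ r1] at k
  simp only [c1, c2, Fintype.sum_prod_type, ite_mul, mul_ite,
    zero_mul, mul_zero, ite_smul, zero_smul, Finset.sum_ite_irrel, Finset.sum_const_zero,
    Finset.sum_ite_eq, Finset.mem_univ, if_true] at k
  refine mul_left_cancel₀ (show (8 : ℂ) ≠ 0 by norm_num) (Eq.trans ?_ (k.trans (mul_zero _).symm))
  simp only [CtxZ.t0, Finset.mul_sum, smul_eq_mul]
  refine Finset.sum_congr rfl fun m _ => Finset.sum_congr rfl fun k _ =>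
    Finset.sum_congr rfl fun l _ => Finset.sum_congr rfl fun n _ => ?_
  push_cast
  ring

end

end Vale.Agent.P352X.RS
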