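import Vale.Agent.P352X.R.RES.DvC
import Vale.Agent.P352Z.P352X.R.FAR
import Vale.Agent.P352Z.P352X.R.RES.Red

open Vale.Agent.P352G

/-!
# P352X, block RES: the divergence of the three point distribution in the first slot
-/

set_option linter.all false

open MeasureTheory Filter Topology
open scoped ContDiff SchwartzMap LineDeriv

namespace Vale.Agent.P352X.RS.Dva

open Vale.Agent.P352 Vale.Agent.P352.GF Vale.Agent.P352.H755
open MvPolynomial (X C pderiv)
open UniformSpace (Completion)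
open Api4 SchwartzMap Red

noncomputable section

variable {D : Type*} [NormedAddCommGroup D] [InnerProductSpace ℂ D] [GrD D] (c : CtxZ D)

/-- the divergence in the first slot -/
def D3Z (n : Ix) (J K : I2) : S3 →L[ℂ] ℂ :=
  ∑ m, c.t (m, n) J K ∘L LineDeriv.lineDerivOpCLM ℂ S3 ((bas m 1, 0, 0) : V × V × V)

theorem D3_appZ (n : Ix) (J K : I2) (F : S3) :
    D3Z c n J K F = ∑ m, c.t (m, n) J K (∂_{((bas m 1, 0, 0) : V × V × V)} F) := by simp [D3Z]

/-- the third point is not earlier than the two others -/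
theorem facAZ [Fact c.tp] (n : Ix) (J K : I2) {G : S2} {f : Sch} {F : S3}
    (e : ∀ x y z, F (x, y, z) = G (x, y) * f z) (h : Late (tsupport f) (Far.legs G)) :
    D3Z c n J K F =
      inner ℂ ((c.T K.1 K.2 (bar (ev f)) c.Q.vac : D) : Completion D) (dv1 c.wp n J G) := by
  rw [D3_appZ, dv1, inner_sum]
  refine Finset.sum_congr rfl fun m _ => ?_
  rw [c.hTP.swap2 _ J K _ (compCLMOfContinuousLinearEquiv ℂ Far.sw2 _) fun _ _ _ => rfl,
    c.hTP.swap1 _ K J _ (ST.tens f (∂_{((bas m 1, 0) : V × V)} G)) fun x y z =>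
      (mul_comm _ _).trans (d_mul e _ y z x).symm]
  exact c.hTP.fac1 K _ J f _ _ (fun _ _ _ => rfl) fun x hx y hy => h x hx y (legs_d _ _ hy)

/-- the third point is not later than the two others -/
theorem facBZ [Fact c.tp] (n : Ix) (J K : I2) {G G' : S2} {f : Sch} {F : S3}
    (e : ∀ x y z, F (x, y, z) = G (x, y) * f z) (e' : ∀ x, G' x = star (G x))
    (h : Late (Far.legs G) (tsupport f)) : D3Z c n J K F =
      inner ℂ (dv1 c.wm n J G') ((c.T K.1 K.2 (ev f) c.Q.vac : D) : Completion D) := by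
  rw [D3_appZ, dv1, sum_inner]
  exact Finset.sum_congr rfl fun m _ => c.hTP.fac3 _ J K _ _ f _ (d_mul e _)
    (fun x => by simp only [lineDerivOp_apply, lineDeriv, e', deriv.star])
    fun x hx y hy => h x (legs_d _ _ hx) y hy

/-- the divergence of the reduced distribution -/
theorem div_eqZ [Fact c.tp] {ρ0 : V → ℝ} (h : Tst ρ0) {φ : V × V → ℂ} (hφ : Dc φ) (S : P20) :
    Div (LamZ c ρ0) φ S = 2 * ∑ n, ∑ J, ∑ K,
      D3Z c n J K (red3 (sch (cx ρ0)) (sch fun z => φ z * ev8 (d5 n J K S) z)) := by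
  have dm : ∀ {φ : V × V → ℂ} (S : P20), Dc φ → Dc fun z => φ z * ev8 S z :=
    fun S k => dc_mul k (ev8_smooth S)
  have hd : ∀ {φ : V × V → ℂ} m, Dc φ → Dc (du m φ) := fun m k => dc_fderiv k contDiff_const
  have t : ∀ I J K {ψ}, Dc ψ → tauZ c ρ0 I J K ψ = c.t I J K (red3 (sch (cx ρ0)) (sch ψ)) :=
    fun I J K ψ k => congrArg _ (sch_red3 (Api4.dc_cx h) k).2
  have k : ∀ I J K, (tauZ c ρ0 I J K fun z => φ z * ev8 (d6 I J K (d1 S)) z) +
      ∑ m, (tauZ c ρ0 I J K fun z => du m φ z * ev8 (d6 I J K (X (0, m) * S)) z) =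
      c.t I J K (∂_{((bas I.1 1, 0, 0) : V × V × V)}
        (red3 (sch (cx ρ0)) (sch fun z => φ z * ev8 (d5 I.2 J K S) z))) +
      c.t I.swap J K (∂_{((bas I.2 1, 0, 0) : V × V × V)}
        (red3 (sch (cx ρ0)) (sch fun z => φ z * ev8 (d5 I.1 J K S) z))) := fun I J K => by
    simp only [t _ _ _ (dm _ hφ), t _ _ _ (dm _ (hd _ hφ)), ← c.hTP.ind, ← red_d, ← map_sum,
      ← map_add, ← sch_fderiv (dm _ hφ)]
    rw [← sch_sum _ fun m _ => dm _ (hd m hφ), ← sch_add (dm _ hφ) (dc_sum _ fun m _ =>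
      dm _ (hd m hφ)), ← sch_add (dc_fderiv (dm _ hφ) contDiff_const)
      (dc_fderiv (dm _ hφ) contDiff_const)]
    congr 3 with z
    simp only [d1, d6_eq, dp_sum, ev8_sum]
    simp only [← d6_eq, d6_X, du, mul_der hφ, ev8_du, d5_pd, mul_add, mul_ite, mul_zero,
      Finset.sum_add_distrib, Finset.sum_ite_eq', Finset.mem_univ, if_true]
    ring
  simp only [Div, lam_eqZ]
  have sw : ∀ {α : Type} [Fintype α] (g : Ix → α → I2 → I2 → ℂ),
      ∑ m, ∑ I, ∑ J, ∑ K, g m I J K = ∑ I, ∑ J, ∑ K, ∑ m, g m I J K := fun g =>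
    Finset.sum_comm.trans (Finset.sum_congr rfl fun _ _ => Finset.sum_comm.trans
      (Finset.sum_congr rfl fun _ _ => Finset.sum_comm))
  rw [sw]
  simp only [← Finset.sum_add_distrib, k]
  simp only [Finset.sum_add_distrib, D3_appZ, ← sw, two_mul]
  rw [Fintype.sum_prod_type, Fintype.sum_prod_type_right (f := fun I : I2 => ∑ J : I2, ∑ K : I2, _)]
  rfl

end

end Vale.Agent.P352X.RS.Dva
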