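import Vale.Agent.P352X.R.RES.DvD
import Vale.Agent.P352Z.P352X.R.RES.DvC

open Vale.Agent.P352G

/-!
# P352X, row RES.diva: the contact terms at `z1 = z2`
-/

set_option linter.all false

open MeasureTheory Filter Topology Metric
open scoped ContDiff SchwartzMap LineDeriv ComplexConjugate

namespace Vale.Agent.P352X.RS.Dva

open Vale.Agent.P352 Vale.Agent.P352.GF Vale.Agent.P352.BW Vale.Agent.P352.H755
open UniformSpace (Completion)
open Api4 SchwartzMap

noncomputable section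

variable {k : ℕ} (γ : Fin k → Ix)

variable {D : Type*} [NormedAddCommGroup D] [InnerProductSpace ℂ D] [GrD D] {c : CtxZ D}

/-- the overlaps of the contact terms with `T` -/
structure OvlZ (c : CtxZ D) (w : I2 → I2 → S2 →L[ℂ] Completion D) (k0 : ℕ)
    (π : Ix → I2 → Ix → Ix → Fam) : Prop where
  ov : ∀ n J k γ, Ov (5 - k) fun r s => π n J r s k γ
  zero : ∀ n J r s k γ, 5 < k → π n J r s k γ = 0
  eq : ∀ n J r s (m g f : Sch), HasCompactSupport m → HasCompactSupport g →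
    inner ℂ ((c.T r s (ev f) c.Q.vac : D) : Completion D) (dv1 w n J (ten2 m g)) =
      ∑ k ∈ Finset.range (k0 + 1), ∑ γ, (k.factorial : ℂ)⁻¹ * (d0 γ m *
        ∫ p in Fc, evp (π n J r s k γ) p * (conj (ft (ev f) p) * ft (ev g) p))

theorem ex_ovlZ (t : T3Z c) {e : Bool} {w : I2 → I2 → S2 →L[ℂ] Completion D}
    (hw : TP2 c.Q c.T e w) : ∃ k0 π, OvlZ c w k0 π := by
  obtain ⟨k0, O, h1, -, h3⟩ := t.struct e w hw
  choose π p1 p2 p3 p4 p5 p6 using fun k : ℕ => t.poly (k + 3) (5 - k) (O k)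
    (by exact_mod_cast h1 k) ⟨1 - k, by push_cast; ring⟩
  refine ⟨k0, fun n J r s k γ => π k r s (ix3 n J γ), fun n J k γ => ⟨fun r s => ?_,
    fun r s => p3 k r s _, fun s => p4 k s _, fun r s l => p5 k r s l _⟩,
    fun n J r s k γ hk => (p2 k r s _).2 (by omega), fun n J r s m g f hm hg => ?_⟩
  · exact (show (5 - k : ℤ).toNat = 5 - k by omega) ▸ (p2 k r s _).1
  · rw [h3 n J (ten2 m g) (dc_tenE (sh2 V) (dc_of_sch m hm) (dc_of_sch g hg)).2]
    simp only [inner_sum, inner_smul_right, dg_ten2, map_smul, p1]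

variable {k0 k1 : ℕ} {π π' : Ix → I2 → Ix → Ix → Fam} {ρ : Sch}

theorem thmAZ [Fact c.tp] (h : OvlZ c c.wp k0 π) (h1 : ∫ y, ρ y = 1) (n : Ix) (J K : I2) (φ : S2)
    (hφ : tsupport φ ⊆ {z | ¬ Cl (z.1 - z.2) ∧ ¬ Cl (0 - z.2)}) :
    D3Z c n J K (red3 ρ φ) = RR k0 (π n J K.1 K.2) (Lc Fc) φ := by
  refine ka _ _ ((closed_Cl.isOpen_compl.preimage (f := fun z : V × V => z.1 - z.2)
    (by fun_prop)).inter (closed_Cl.isOpen_compl.preimage (f := fun z : V × V => 0 - z.2)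
    (by fun_prop))) (fun m g f hm hg hf hs => ?_) h1 φ hφ
  have e : bar (ev f) = ev (sch fun z => star (f z)) := (coe_sch (dc_star (dc_of_sch f hf))).symm
  rw [facAZ c n J K (fun x y z => ten3_tens m g f (x, y, z)) ?_, e, h.eq _ _ _ _ _ _ _ hm hg, ← e]
  · simp only [RR_app, rs_tens, map_smul, Lc_app, ft_cor, ft_bar, neg_neg, Complex.conj_conj,
      smul_eq_mul, mul_comm (ft (ev f) _)]
  · rintro x hx _ (⟨q, hq, rfl⟩ | ⟨q, hq, rfl⟩)
    · simpa [Cl] using (hs q hq x hx).1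
    · simpa [Cl] using (hs q hq x hx).2

theorem thmBZ [Fact c.tp] (h : OvlZ c c.wm k1 π') (h1 : ∫ y, ρ y = 1) (n : Ix) (J K : I2) : ∃ π'', ∀ φ : S2,
    tsupport φ ⊆ {z | ¬ Cl (z.2 - z.1) ∧ ¬ Cl (z.2 - 0)} →
      D3Z c n J K (red3 ρ φ) = RR k1 π'' (Lc nF) φ := by
  choose cj hj using ex_cj
  refine ⟨fun k γ => cj (π' n J K.1 K.2 k γ), ka _ _ ((closed_Cl.isOpen_compl.preimage
    (f := fun z : V × V => z.2 - z.1) (by fun_prop)).inter (closed_Cl.isOpen_compl.preimage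
    (f := fun z : V × V => z.2 - 0) (by fun_prop))) (fun m g f hm hg hf hs => ?_) h1⟩
  have em := coe_sch (dc_star (dc_of_sch m hm))
  have eg := coe_sch (dc_star (dc_of_sch g hg))
  rw [facBZ c n J K (G' := ten2 (sch fun z => star (m z)) (sch fun z => star (g z)))
    (fun x y z => ten3_tens m g f (x, y, z)) (fun x => by simp only [ten2_apply, em, eg, star_mul']) ?_,
    ← inner_conj_symm, h.eq _ _ _ _ _ _ _ (em.symm ▸ (dc_star (dc_of_sch m hm)).2)
      (eg.symm ▸ (dc_star (dc_of_sch g hg)).2),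
    show ev (sch fun z => star (g z)) = bar (ev g) from eg, em]
  · simp only [RR_app, rs_tens, map_smul, Lc_nF, ft_cor, ft_bar, smul_eq_mul, map_sum, map_mul,
      map_inv₀, map_natCast, d0_star _ (m.smooth ⊤), Complex.conj_conj, ← integral_conj, hj,
      mul_comm (ft (ev f) _)]
  · rintro _ (⟨q, hq, rfl⟩ | ⟨q, hq, rfl⟩) x hx
    · simpa [Cl] using (hs q hq x hx).1
    · simpa [Cl] using (hs q hq x hx).2

/-- the divergence near `u = 0` -/
theorem glueZ [Fact c.tp] (t : T3Z c) (h : OvlZ c c.wp k0 π) (h1 : ∫ y, ρ y = 1) {O : Set V} (hO : IsOpen O)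
    {ε : ℝ} (hε : ε ≤ 1) {a : V → ℂ} (ha : Cf O ε a) (n : Ix) (J K : I2) (φ : S2)
    (hc : HasCompactSupport φ) (hφ : tsupport φ ⊆ ball 0 ε ×ˢ O) :
    D3Z c n J K (red3 ρ φ) = RR k0 (π n J K.1 K.2) (Mu a) φ := by
  obtain ⟨k1, π', h'⟩ := ex_ovlZ t c.hTP.tm
  obtain ⟨π'', hB⟩ := thmBZ h' h1 n J K
  refine sub_eq_zero.1 (t.ker V V (D3Z c n J K ∘L red3 ρ - RR k0 (π n J K.1 K.2) (Mu a)) _ _
    isOpen_ball hO (fun m f G _ hm _ hf e => sub_eq_zero.2 ?_) φ hc hφ)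
  have z0 : ‖(0 : V)‖ < ε := by simpa using ha.pos
  have A : ∀ g : Sch, (∀ v ∈ tsupport g, ∀ u, ‖u‖ < ε → ¬ Cl (u - v)) →
      D3Z c n J K (red3 ρ (ST.tens m g)) = Lc Fc (QQ k0 (π n J K.1 K.2) m) g := fun g hg => by
    rw [thmAZ h h1 n J K _ fun z hz => ?_, RR_tens]
    have := ST.tsupport_tens _ _ hz
    exact ⟨hg _ this.2 _ (by simpa using hm this.1), hg _ this.2 _ z0⟩
  have B : ∀ g : Sch, (∀ v ∈ tsupport g, ∀ u, ‖u‖ < ε → ¬ Cl (v - u)) →
      D3Z c n J K (red3 ρ (ST.tens m g)) = Lc nF (QQ k1 π'' m) g := fun g hg => by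
    rw [hB _ fun z hz => ?_, RR_tens]
    have := ST.tsupport_tens _ _ hz
    exact ⟨hg _ this.2 _ (by simpa using hm this.1), hg _ this.2 _ z0⟩
  have s := sep t.gff fun g hg => (A g fun v hv u hu => (far (hg hv) (hu.trans_le hε)).1).symm.trans
    (B g fun v hv u hu => (far (hg hv) (hu.trans_le hε)).2)
  have e1 := smulLeftCLM_apply ha.tg f
  change D3Z c n J K (red3 ρ G) = RR k0 (π n J K.1 K.2) (Mu a) G
  rw [show G = ST.tens m f from SchwartzMap.ext fun z => e z.1 z.2, RR_tens, Mu_app,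
    ← add_sub_cancel (smulLeftCLM ℂ a f) f, ← ST.tensR_apply, map_add,
    map_add, map_add, ST.tensR_apply, ST.tensR_apply, A _ fun v hv => ?_, B _ fun v hv => ?_, ← s,
    map_sub]
  · simp only [add_sub_cancel]
    ring
  · rw [show ((f - smulLeftCLM ℂ a f : Sch) : V → ℂ) = fun x => (1 - a) x * f x from
      funext fun x => by simp [e1, sub_mul]] at hv
    exact ha.B v (hf (tsupport_mul_subset_right hv)) (tsupport_mul_subset_left hv)
  · rw [e1] at hv
    exact ha.A v (hf (tsupport_smul_subset_right _ _ hv)) (tsupport_smul_subset_left _ _ hv)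

end

end Vale.Agent.P352X.RS.Dva
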